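import Vale.Agent.P299.H800.Kir.Sec

/-!
# P299, INDEX-KIRWAN: invariant sections of multiples of `-K` without common zeros
-/

open scoped Manifold ContDiff ComplexOrder Topology
open Vale.Agent.P272.K Vale.Agent.P299.D Vale.Agent.P299.H582 Vale.Agent.P299.H720 Filter

set_option linter.unusedSectionVars false

noncomputable section

namespace Vale.Agent.P299.H800.Kir

section lattice

variable {r : ℕ}

theorem pair_add_left (κ κ' : Fin r → ℤ) (ξ : Fin r → ℝ) :
    pair (κ + κ') ξ = pair κ ξ + pair κ' ξ := by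
  simp [pair, add_mul, Finset.sum_add_distrib]

theorem pair_neg_left (κ : Fin r → ℤ) (ξ : Fin r → ℝ) : pair (-κ) ξ = -pair κ ξ := by
  simp [pair, Finset.sum_neg_distrib]

/-- an integral linear form which vanishes where other integral linear forms vanish is a rational
combination of them -/
theorem exists_int_comb {ι : Type*} [Fintype ι] (lam : ι → Fin r → ℤ) (κ : Fin r → ℤ)
    (h : ∀ ξ : Fin r → ℝ, (∀ i, pair (lam i) ξ = 0) → pair κ ξ = 0) :
    ∃ k0 : ℕ, 1 ≤ k0 ∧ ∃ m : ι → ℤ, (k0 : ℤ) • κ = ∑ i, m i • lam i := by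
  classical
  let L : (Fin r → ℤ) → ((Fin r → ℚ) →ₗ[ℚ] ℚ) := fun l =>
    ∑ j, (l j : ℚ) • LinearMap.proj (R := ℚ) (φ := fun _ : Fin r => ℚ) j
  have hL : ∀ l (x : Fin r → ℚ), L l x = ∑ j, (l j : ℚ) * x j := fun l x => by
    simp [L, LinearMap.sum_apply]
  have h1 : (⨅ i, LinearMap.ker (L (lam i))) ≤ LinearMap.ker (L κ) := by
    intro x hx
    rw [Submodule.mem_iInf] at hx
    rw [LinearMap.mem_ker, hL]
    have h2 : pair κ (fun j => (x j : ℝ)) = 0 := by
      refine h _ fun i => ?_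
      have h3 := hx i
      rw [LinearMap.mem_ker, hL] at h3
      have h4 := congrArg (fun q : ℚ => (q : ℝ)) h3
      simp only [Rat.cast_sum, Rat.cast_mul, Rat.cast_intCast, Rat.cast_zero] at h4
      exact h4
    have h5 : ((∑ j, (κ j : ℚ) * x j : ℚ) : ℝ) = 0 := by
      rw [← h2]
      simp [pair]
    exact_mod_cast h5
  have h2 := mem_span_of_iInf_ker_le_ker h1
  obtain ⟨c, hc⟩ := (Submodule.mem_span_range_iff_exists_fun ℚ).1 h2
  have h3 : ∀ j, ∑ i, c i * (lam i j : ℚ) = κ j := by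
    intro j
    have h4 := congrArg (fun φ : (Fin r → ℚ) →ₗ[ℚ] ℚ => φ (Pi.single j 1)) hc
    simp only [LinearMap.sum_apply, LinearMap.smul_apply, hL, smul_eq_mul, Pi.single_apply,
      mul_ite, mul_one, mul_zero, Finset.sum_ite_eq', Finset.mem_univ, if_true] at h4
    exact h4
  set k0 : ℕ := ∏ i, (c i).den with hk0
  have hk : 1 ≤ k0 := Finset.one_le_prod' (f := fun i => (c i).den)
    fun i _ => (c i).den_pos
  have h4 : ∀ i, ∃ m : ℤ, (k0 : ℚ) * c i = m := by
    intro i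
    obtain ⟨q, hq⟩ := Finset.dvd_prod_of_mem (fun i => (c i).den) (Finset.mem_univ i)
    refine ⟨q * (c i).num, ?_⟩
    rw [hk0, hq]
    have h5 : c i * (c i).den = (c i).num := Rat.mul_den_eq_num (c i)
    push_cast
    linear_combination (q : ℚ) * h5
  choose m hm using h4
  refine ⟨k0, hk, m, ?_⟩
  funext j
  have h5 : ((k0 : ℚ) * κ j) = ∑ i, (m i : ℚ) * lam i j := by
    rw [← h3 j, Finset.mul_sum]
    exact Finset.sum_congr rfl fun i _ => by rw [← hm i]; ring
  simp only [Pi.smul_apply, smul_eq_mul, Finset.sum_apply]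
  exact_mod_cast h5

end lattice

section algebra

variable {r n M : ℕ} {Z : Type} [TopologicalSpace Z] [ChartedSpace (Cm n) Z] {w : FormM n Z}
  {T : TorusAct r n Z w} {c c' : ℕ} {κ κ' : Fin r → ℤ} {s s' : Chart n Z → Cm n → ℂ}

theorem Wsec.mul (h : Wsec T c κ s) (h' : Wsec T c' κ' s') :
    Wsec T (c + c') (κ + κ') fun e z => s e z * s' e z where
  smooth e x hx := (h.smooth e x hx).mul (h'.smooth e x hx)
  change e e' x hx hx' := by rw [← h.change e e' x hx hx', ← h'.change e e' x hx hx', pow_add]; ring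
  law t e e' x hx hx' := by
    rw [← h.law t e e' x hx hx', ← h'.law t e e' x hx hx', pow_add, ch_add_left]; ring

theorem Wsec.one : Wsec T 0 0 fun _ _ => 1 where
  smooth _ _ _ := contDiffAt_const
  change _ _ _ _ _ := by rw [pow_zero, mul_one]
  law t _ _ _ _ _ := by rw [pow_zero, mul_one, ch_zero_left, mul_one]

theorem Wsec.pow (h : Wsec T c κ s) (m : ℕ) : Wsec T (m * c) (m • κ) fun e z => s e z ^ m := by
  induction m with
  | zero => simpa using Wsec.one
  | succ m ih =>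
    have h1 := ih.mul h
    rw [succ_nsmul, Nat.succ_mul]
    simpa only [pow_succ] using h1

theorem Wsec.prod {ι : Type*} (S : Finset ι) {f : ι → Chart n Z → Cm n → ℂ} {κ : ι → Fin r → ℤ}
    (h : ∀ i ∈ S, Wsec T 0 (κ i) (f i)) : Wsec T 0 (∑ i ∈ S, κ i) fun e z => ∏ i ∈ S, f i e z := by
  classical
  induction S using Finset.induction_on with
  | empty => simpa using Wsec.one
  | insert a S ha ih =>
    have h1 := (h a (Finset.mem_insert_self a S)).mul
      (ih fun i hi => h i (Finset.mem_insert_of_mem hi))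
    rw [Finset.sum_insert ha]
    simpa only [Finset.prod_insert ha, Nat.add_zero] using h1

theorem wf_wsec (W : WF T M) (i : Fin M) :
    Wsec T 0 (W.wt i) fun e z => W.F i (e.symm z) where
  smooth e x hx := W.smooth i e x hx
  change e e' x hx hx' := by rw [pow_zero, one_mul, hx.left_inv, hx'.left_inv]
  law t e e' x hx hx' := by
    rw [pow_zero, one_mul, hx.left_inv, hx'.left_inv, W.law, mul_comm]

theorem wf_wsec_conj (W : WF T M) (i : Fin M) :
    Wsec T 0 (-W.wt i) fun e z => cj (W.F i (e.symm z)) where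
  smooth e x hx := Complex.conjCLE.contDiff.contDiffAt.comp (e x) (W.smooth i e x hx)
  change e e' x hx hx' := by rw [pow_zero, one_mul, hx.left_inv, hx'.left_inv]
  law t e e' x hx hx' := by
    rw [pow_zero, one_mul, hx.left_inv, hx'.left_inv, W.law, mul_comm, ← ch_conj]
    exact (map_mul _ _ _).symm

/-- a smooth function of weight `-m λ_i`, nonzero where `F i` is nonzero -/
theorem wf_exists_pow (W : WF T M) (i : Fin M) (m : ℤ) :
    ∃ f : Chart n Z → Cm n → ℂ, Wsec T 0 (-(m • W.wt i)) f ∧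
      ∀ e x, At e x → W.F i x ≠ 0 → f e (e x) ≠ 0 := by
  rcases Int.eq_nat_or_neg m with ⟨k, rfl | rfl⟩
  · refine ⟨fun e z => cj (W.F i (e.symm z)) ^ k, ?_, fun e x hx h0 => ?_⟩
    · have h1 := (wf_wsec_conj W i).pow k
      rw [mul_zero, smul_neg] at h1
      rw [natCast_zsmul]
      exact h1
    · simp only [hx.left_inv]
      exact pow_ne_zero _ ((map_ne_zero _).2 h0)
  · refine ⟨fun e z => W.F i (e.symm z) ^ k, ?_, fun e x hx h0 => ?_⟩
    · have h1 := (wf_wsec W i).pow k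
      rw [mul_zero] at h1
      rw [neg_smul, neg_neg, natCast_zsmul]
      exact h1
    · simp only [hx.left_inv]
      exact pow_ne_zero _ h0

/-- multiplication by an invariant smooth function -/
theorem Wsec.fmul (h : Wsec T c κ s) {χ : Z → ℂ}
    (hχ : ∀ (e : Chart n Z) x, At e x → ContDiffAt ℝ ∞ (fun z => χ (e.symm z)) (e x))
    (hinv : ∀ t x, χ (T.a t x) = χ x) : Wsec T c κ fun e z => χ (e.symm z) * s e z where
  smooth e x hx := (hχ e x hx).mul (h.smooth e x hx)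
  change e e' x hx hx' := by
    rw [← h.change e e' x hx hx', hx.left_inv, hx'.left_inv]; ring
  law t e e' x hx hx' := by
    rw [← h.law t e e' x hx hx', hx.left_inv, hx'.left_inv, hinv]; ring

theorem Wsec.tenInv (h : Wsec T c 0 s) (t : Fin r → ℝ) : TenInv c (T.a t) (toTen s) := by
  intro e e' x hx hx' I
  have h1 := h.law t e e' x hx hx'
  rw [ch_zero_left, mul_one] at h1
  unfold toTen tenPull
  rw [h1]
  simp

theorem Wsec.tenChange (h : Wsec T c κ s) {e e' : Chart n Z} {x : Z} (hx : At e x)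
    (hx' : At e' x) (I : Fin 0 → Fin n) :
    (jacM e e' x).det ^ c * toTen s e (e x) I = tenPull (jacM e e' x) (toTen s e' (e' x)) I := by
  have h1 := h.change e e' x hx hx'
  unfold toTen tenPull
  rw [h1]
  simp

variable [IsManifold 𝓘(ℂ, Cm n) ω Z]

theorem Wsec.ne_near (h : Wsec T c κ s) {e : Chart n Z} {x : Z} (hx : At e x)
    (h0 : s e (e x) ≠ 0) : ∀ᶠ y in 𝓝 x, ∀ e', At e' y → s e' (e' y) ≠ 0 := by
  have h1 : ContinuousAt (fun y => s e (e y)) x :=
    ContinuousAt.comp (h.smooth e x hx).continuousAt (e.continuousAt hx.2)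
  filter_upwards [h1.eventually_ne h0, e.open_source.mem_nhds hx.2] with y hy hy' e' he'
  have hxe : At e y := ⟨hx.1, hy'⟩
  rw [← h.change e e' y hxe he']
  exact mul_ne_zero (pow_ne_zero _ (jacM_det_ne_zero hxe he')) hy

theorem exists_inv_at (hw : IsHermitian w) (W : WF T M) {e : Chart n Z} {x : Z} (hx : At e x)
    {I : Fin n → Fin M} (hI : tau W I e (e x) ≠ 0)
    (h : ∀ ξ : Fin r → ℝ, (∀ i, W.F i x ≠ 0 → pair (W.wt i) ξ = 0) → pair (lamI W I) ξ = 0) :
    ∃ k0 : ℕ, 1 ≤ k0 ∧ ∃ s : Chart n Z → Cm n → ℂ, Wsec T k0 0 s ∧ s e (e x) ≠ 0 := by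
  classical
  obtain ⟨k0, hk0, m, hm⟩ := exists_int_comb
    (fun i : {i : Fin M // W.F i x ≠ 0} => W.wt i.1) (-lamI W I) fun ξ hξ => by
      rw [pair_neg_left, h ξ fun i hi => hξ ⟨i, hi⟩, neg_zero]
  choose f hf hf0 using fun i : {i : Fin M // W.F i x ≠ 0} => wf_exists_pow W i.1 (m i)
  refine ⟨k0, hk0, fun e z => sig W I e z ^ k0 * ∏ i, f i e z, ?_, ?_⟩
  · have h1 := ((sig_wsec hw W I).pow k0).mul (Wsec.prod Finset.univ fun i _ => hf i)
    have h2 : k0 • -lamI W I + ∑ i, -(m i • W.wt i.1) = 0 := by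
      rw [Finset.sum_neg_distrib, ← hm, natCast_zsmul, add_neg_cancel]
    rw [h2, mul_one, add_zero] at h1
    exact h1
  · refine mul_ne_zero (pow_ne_zero _ ((sig_ne hw W I hx).2 hI)) ?_
    exact Finset.prod_ne_zero_iff.2 fun i _ => hf0 i e x hx i.2

/-- **Invariant sections of a multiple of `-K` without common zeros on `C`.** -/
theorem exists_inv [CompactSpace Z] (hw : IsHermitian w) (W : WF T M) {C : Set Z}
    (hC : IsClosed C) (hx : ∀ x ∈ C, ∃ (e : Chart n Z) (I : Fin n → Fin M), At e x ∧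
      tau W I e (e x) ≠ 0 ∧ ∀ ξ : Fin r → ℝ,
        (∀ i, W.F i x ≠ 0 → pair (W.wt i) ξ = 0) → pair (lamI W I) ξ = 0) :
    ∃ K0 : ℕ, 1 ≤ K0 ∧ ∃ (N : ℕ) (s : Fin N → Chart n Z → Cm n → ℂ),
      (∀ j, Wsec T K0 0 (s j)) ∧ ∀ x ∈ C, ∃ j, ∀ e, At e x → s j e (e x) ≠ 0 := by
  classical
  have h1 : ∀ x ∈ C, ∃ k0 : ℕ, 1 ≤ k0 ∧ ∃ s : Chart n Z → Cm n → ℂ, Wsec T k0 0 s ∧
      ∀ᶠ y in 𝓝 x, ∀ e', At e' y → s e' (e' y) ≠ 0 := by
    intro x hxC
    obtain ⟨e, I, he, hI, h⟩ := hx x hxC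
    obtain ⟨k0, hk0, s, hs, hs0⟩ := exists_inv_at hw W he hI h
    exact ⟨k0, hk0, s, hs, hs.ne_near he hs0⟩
  choose! k hk s hs hs0 using h1
  obtain ⟨t, ht, htC⟩ := hC.isCompact.elim_nhds_subcover
    (fun x => {y | ∀ e', At e' y → s x e' (e' y) ≠ 0}) fun x hxC => hs0 x hxC
  set K0 : ℕ := ∏ x ∈ t, k x with hK0
  have hK1 : 1 ≤ K0 := Finset.one_le_prod' fun x hx => hk x (ht x hx)
  let ι := t.equivFin
  refine ⟨K0, hK1, t.card, fun j e z => s (ι.symm j).1 e z ^ (K0 / k (ι.symm j).1), ?_, ?_⟩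
  · intro j
    have h2 := (hs _ (ht _ (ι.symm j).2)).pow (K0 / k (ι.symm j).1)
    rw [Nat.div_mul_cancel (Finset.dvd_prod_of_mem k (ι.symm j).2), smul_zero] at h2
    exact h2
  · intro x hxC
    obtain ⟨y, hyt, hxy⟩ := Set.mem_iUnion₂.1 (htC hxC)
    refine ⟨ι ⟨y, hyt⟩, fun e he => ?_⟩
    simp only [Equiv.symm_apply_apply]
    exact pow_ne_zero _ (hxy e he)

/-- the trace of a holomorphic field at a zero -/
theorem trace_vf (W : WF T M) {I : Fin n → Fin M} {X : Cm n → Cm n} {ξ : Fin r → ℝ}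
    {e : Chart n Z} {x : Z} (h : At e x) (hX : ∀ᶠ y in 𝓝 (e x), DifferentiableAt ℂ X y)
    (h0 : X (e x) = 0)
    (hc : ∀ i, ∀ᶠ y in 𝓝 (e x), fderiv ℝ (fun z => W.F i (e.symm z)) y (X y) =
      (2 * Real.pi * Complex.I * (pair (W.wt i) ξ : ℝ)) * W.F i (e.symm y))
    (hI : tau W I e (e x) ≠ 0) :
    ∑ j, dz j (fun y => X y j) (e x) = 2 * Real.pi * Complex.I * (pair (lamI W I) ξ : ℝ) := by
  rw [trace_eq (F := fun k z => W.F (I k) (e.symm z))
    (fun k => (W.smooth (I k) e x h).of_le (by norm_cast)) hX h0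
    (fun k => hc (I k)) hI, ← Finset.mul_sum]
  congr 1
  unfold lamI pair
  push_cast
  rw [Finset.sum_comm]
  refine Finset.sum_congr rfl fun j _ => ?_
  rw [Finset.sum_apply]
  push_cast
  rw [Finset.sum_mul]

end algebra

end Vale.Agent.P299.H800.Kir
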