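import Vale.Agent.P299.H800.Kir.Defs
import Vale.Agent.P299.H720.InvMet
import Vale.Agent.P272.K.INT.Piola

/-!
# P299, INDEX-KIRWAN: weight sections of the anticanonical bundle from weight functions
-/

open scoped Manifold ContDiff ComplexOrder Topology
open Vale.Agent.P272.K Vale.Agent.P299.D Vale.Agent.P299.H582 Vale.Agent.P299.H720 Filter

set_option linter.unusedSectionVars false

noncomputable section

namespace Vale.Agent.P299.H800.Kir

section span

/-- an injective `M × n` matrix has an invertible `n × n` submatrix -/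
theorem exists_minor {M n : ℕ} (A : Matrix (Fin M) (Fin n) ℂ)
    (h : ∀ v : Cm n, (∀ i, ∑ j, A i j * v j = 0) → v = 0) :
    ∃ I : Fin n → Fin M, (Matrix.of fun k j => A (I k) j).det ≠ 0 := by
  classical
  set s : Set (Cm n) := Set.range fun i => (fun j => A i j) with hs
  have htop : Submodule.span ℂ s = ⊤ := by
    by_contra hne
    obtain ⟨f, hf, hfs⟩ := Submodule.exists_le_ker_of_lt_top _ (lt_top_iff_ne_top.2 hne)
    refine hf ?_
    have h1 : (fun j => f (Pi.single j 1)) = 0 := by
      refine h _ fun i => ?_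
      have h2 : f (fun j => A i j) = 0 := hfs (Submodule.subset_span ⟨i, rfl⟩)
      have h3 : (fun j => A i j) = ∑ j, A i j • (Pi.single j (1 : ℂ) : Cm n) := by
        funext k
        simp [Finset.sum_apply, Pi.single_apply]
      rw [h3, map_sum] at h2
      simpa [map_smul, smul_eq_mul] using h2
    refine LinearMap.pi_ext fun j x => ?_
    have h4 : (Pi.single j x : Cm n) = x • Pi.single j 1 := by
      rw [← Pi.single_smul, smul_eq_mul, mul_one]
    rw [h4, map_smul, congrFun h1 j]
    simp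
  obtain ⟨g, hg1, hg2, hg3⟩ := Submodule.exists_fun_fin_finrank_span_eq ℂ s
  have hfr : Module.finrank ℂ (Submodule.span ℂ s) = n := by
    rw [htop, finrank_top, Module.finrank_fin_fun]
  have h5 : ∀ k : Fin n, ∃ i, (fun j => A i j) = g (Fin.cast hfr.symm k) := fun k =>
    hg1 (Fin.cast hfr.symm k)
  choose I hI using h5
  refine ⟨I, ?_⟩
  have h6 : (Matrix.of fun k j => A (I k) j) = fun k => g (Fin.cast hfr.symm k) := by
    funext k
    exact hI k
  have h7 : LinearIndependent ℂ (fun k => (Matrix.of fun k j => A (I k) j) k) := by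
    rw [h6]
    exact hg3.comp _ (Fin.cast_injective _)
  have h8 := Matrix.linearIndependent_rows_iff_isUnit.1 h7
  exact ((Matrix.isUnit_iff_isUnit_det _).1 h8).ne_zero

end span

section trace

/-- **Trace identity**: at a zero of a holomorphic field acting on functions with independent
`(1,0)`-differentials by scalars. -/
theorem trace_eq {n : ℕ} {F : Fin n → Cm n → ℂ} {X : Cm n → Cm n} {c : Fin n → ℂ} {z : Cm n}
    (hF : ∀ k, ContDiffAt ℝ 2 (F k) z) (hX : ∀ᶠ y in 𝓝 z, DifferentiableAt ℂ X y) (h0 : X z = 0)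
    (hc : ∀ k, ∀ᶠ y in 𝓝 z, fderiv ℝ (F k) y (X y) = c k * F k y)
    (hdet : (Matrix.of fun k j => dz j (F k) z).det ≠ 0) :
    ∑ j, dz j (fun y => X y j) z = ∑ k, c k := by
  classical
  set D : Matrix (Fin n) (Fin n) ℂ := Matrix.of fun k j => dz j (F k) z with hD
  set A : Matrix (Fin n) (Fin n) ℂ := Matrix.of fun j l => dz l (fun y => X y j) z with hA
  have hXz : DifferentiableAt ℂ X z := hX.self_of_nhds
  have hXj : ∀ j, DifferentiableAt ℂ (fun y => X y j) z := fun j => differentiableAt_comp_apply hXz j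
  have hXjR : ∀ j, DifferentiableAt ℝ (fun y => X y j) z := fun j =>
    (hXj j).restrictScalars ℝ
  have key : D * A = Matrix.diagonal c * D := by
    ext k l
    rw [Matrix.mul_apply, Matrix.diagonal_mul]
    have h1 : (fun y => c k * F k y) =ᶠ[𝓝 z]
        fun y => ∑ j, (dz j (F k) y * X y j + dzb j (F k) y * cj (X y j)) := by
      filter_upwards [hc k] with y hy
      rw [← hy, fderiv_eq]
    have h2 := dz_congr (i := l) h1
    rw [dz_const_mul _ ((hF k).differentiableAt (by norm_num))] at h2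
    have hd1 : ∀ j, DifferentiableAt ℝ (fun y => dz j (F k) y) z := fun j =>
      differentiableAt_dz (hF k)
    have hd2 : ∀ j, DifferentiableAt ℝ (fun y => dzb j (F k) y) z := fun j =>
      differentiableAt_dzb (hF k)
    have hcjd : ∀ j, DifferentiableAt ℝ (fun y => cj (X y j)) z := fun j =>
      Complex.conjCLE.differentiableAt.comp z (hXjR j)
    have hs : ∀ j, DifferentiableAt ℝ (fun y => dz j (F k) y * X y j +
        dzb j (F k) y * cj (X y j)) z := fun j =>
      ((hd1 j).mul (hXjR j)).add ((hd2 j).mul (hcjd j))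
    rw [dz_sum Finset.univ (fun j _ => hs j)] at h2
    have h3 : ∀ j, dz l (fun y => dz j (F k) y * X y j + dzb j (F k) y * cj (X y j)) z =
        D k j * A j l := by
      intro j
      have e1 : X z j = 0 := by rw [h0]; rfl
      have e2 : DifferentiableAt ℝ (fun y => dz j (F k) y * X y j) z := (hd1 j).mul (hXjR j)
      have e3 : DifferentiableAt ℝ (fun y => dzb j (F k) y * cj (X y j)) z :=
        (hd2 j).mul (hcjd j)
      rw [dz_add e2 e3, dz_mul (f := fun y => dz j (F k) y) (hd1 j) (hXjR j),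
        dz_mul (f := fun y => dzb j (F k) y) (hd2 j) (hcjd j), dz_cj (hXjR j),
        dzb_of_holo (hXj j), e1]
      simp [hD, hA, cj]
    simp only [h3] at h2
    exact h2.symm
  have h4 : A = D⁻¹ * Matrix.diagonal c * D := by
    rw [Matrix.mul_assoc, ← key, ← Matrix.mul_assoc, Matrix.nonsing_inv_mul _ (isUnit_iff_ne_zero.2 hdet),
      Matrix.one_mul]
  have h5 : A.trace = ∑ k, c k := by
    rw [h4, Matrix.mul_assoc, Matrix.trace_mul_comm, Matrix.mul_assoc,
      Matrix.mul_nonsing_inv _ (isUnit_iff_ne_zero.2 hdet), Matrix.mul_one, Matrix.trace_diagonal]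
  exact h5

end trace

section tau

variable {r n M : ℕ} {Z : Type} [TopologicalSpace Z] [ChartedSpace (Cm n) Z] {w : FormM n Z}
  {T : TorusAct r n Z w}

/-- the form `∂F_{I 1} ∧ … ∧ ∂F_{I n}` -/
def tau (W : WF T M) (I : Fin n → Fin M) : Chart n Z → Cm n → ℂ := fun e z =>
  (Matrix.of fun k j => dz j (fun y => W.F (I k) (e.symm y)) z).det

/-- the weight section of `-K` -/
def sig (W : WF T M) (I : Fin n → Fin M) : Chart n Z → Cm n → ℂ := fun e z =>
  cj (tau W I e z) / (w e z).det

/-- the weight of `∂F_{I 1} ∧ … ∧ ∂F_{I n}` -/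
def lamI (W : WF T M) (I : Fin n → Fin M) : Fin r → ℤ := ∑ k, W.wt (I k)

theorem ch_sum (κ : Fin n → Fin r → ℤ) (t : Fin r → ℝ) : ch (∑ k, κ k) t = ∏ k, ch (κ k) t := by
  induction n with
  | zero => simp [ch_zero_left]
  | succ n ih => rw [Fin.sum_univ_succ, Fin.prod_univ_succ, ch_add_left, ih]

theorem wf_diff (W : WF T M) (i : Fin M) {e : Chart n Z} {x : Z} (h : At e x) :
    DifferentiableAt ℝ (fun z => W.F i (e.symm z)) (e x) :=
  (W.smooth i e x h).differentiableAt (by simp)

theorem exists_tau_ne (W : WF T M) {e : Chart n Z} {x : Z} (h : At e x) :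
    ∃ I : Fin n → Fin M, tau W I e (e x) ≠ 0 := by
  refine exists_minor (Matrix.of fun i j => dz j (fun y => W.F i (e.symm y)) (e x)) fun v hv => ?_
  refine W.imm e x h v fun i => ?_
  obtain ⟨j, hj, -⟩ := W.cjm i
  rw [fderiv_eq, Finset.sum_add_distrib]
  have h1 : ∑ k, dz k (fun z => W.F i (e.symm z)) (e x) * v k = 0 := hv i
  have h2 : ∑ k, dzb k (fun z => W.F i (e.symm z)) (e x) * cj (v k) = 0 := by
    have h3 : ∑ k, dz k (fun z => W.F j (e.symm z)) (e x) * v k = 0 := hv j
    have h4 : (fun z => W.F j (e.symm z)) = fun z => cj (W.F i (e.symm z)) :=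
      funext fun z => hj _
    rw [h4] at h3
    have h5 := congrArg (starRingEnd ℂ) h3
    rw [map_sum, map_zero] at h5
    rw [← h5]
    refine Finset.sum_congr rfl fun k _ => ?_
    rw [dz_cj (wf_diff W i h)]
    simp [cj]
  rw [h1, h2, add_zero]

theorem tau_smooth (W : WF T M) (I : Fin n → Fin M) {e : Chart n Z} {x : Z} (h : At e x) :
    ContDiffAt ℝ ∞ (tau W I e) (e x) := by
  unfold tau
  exact contDiffAt_det fun k j => contDiffAt_dz (W.smooth (I k) e x h) (by simp)

variable [IsManifold 𝓘(ℂ, Cm n) ω Z]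

/-- transformation of `tau` under a holomorphic map multiplying the functions by scalars -/
theorem tau_map (W : WF T M) (I : Fin n → Fin M) {g : Z → Z}
    (hg : ContMDiff 𝓘(ℂ, Cm n) 𝓘(ℂ, Cm n) ω g) (c : Fin n → ℂ)
    (hc : ∀ k x, W.F (I k) (g x) = c k * W.F (I k) x) {e e' : Chart n Z} {x : Z} (h : At e x)
    (h' : At e' (g x)) :
    (∏ k, c k) * tau W I e (e x) = tau W I e' (e' (g x)) * (jacF g e e' x).det := by
  unfold tau
  rw [← Matrix.det_mul, ← Matrix.det_diagonal, ← Matrix.det_mul]
  congr 1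
  ext k l
  rw [Matrix.diagonal_mul, Matrix.mul_apply, Matrix.of_apply]
  have h1 : (fun y => c k * W.F (I k) (e.symm y)) =ᶠ[𝓝 (e x)]
      fun y => (fun u => W.F (I k) (e'.symm u)) (e' (g (e.symm y))) := by
    filter_upwards [nhds_at_map hg.continuous.continuousAt h h'] with y hy
    show _ = W.F (I k) (e'.symm (e' (g (e.symm y))))
    rw [hy.2.2.left_inv, hc]
  have h2 := dz_congr (i := l) h1
  rw [dz_const_mul _ (wf_diff W (I k) h)] at h2
  have h3 : e' (g (e.symm (e x))) = e' (g x) := by rw [h.left_inv]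
  rw [dz_comp_holo (f := fun u => W.F (I k) (e'.symm u)) (τ := fun y => e' (g (e.symm y)))
    (by rw [h3]; exact wf_diff W (I k) h') (rep_differentiableAt hg.contMDiffAt h h'), h3] at h2
  rw [h2]
  rfl

theorem tau_change (W : WF T M) (I : Fin n → Fin M) {e e' : Chart n Z} {x : Z} (h : At e x)
    (h' : At e' x) : tau W I e (e x) = tau W I e' (e' x) * (jacM e e' x).det := by
  have h1 := tau_map W I (g := fun x => x) contMDiff_id (fun _ => 1) (fun k x => (one_mul _).symm)
    h h'
  rw [Finset.prod_const_one, one_mul] at h1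
  exact h1

theorem tau_law (W : WF T M) (I : Fin n → Fin M) (t : Fin r → ℝ) {e e' : Chart n Z} {x : Z}
    (h : At e x) (h' : At e' (T.a t x)) : ch (lamI W I) t * tau W I e (e x) =
      tau W I e' (e' (T.a t x)) * (jacF (T.a t) e e' x).det := by
  have h1 := tau_map W I (T.hol t) (fun k => ch (W.wt (I k)) t) (fun k x => W.law (I k) t x) h h'
  rw [← h1, lamI, ch_sum]

theorem jacF_det_ne (T : TorusAct r n Z w) (t : Fin r → ℝ) {e e' : Chart n Z} {x : Z}
    (h : At e x) (h' : At e' (T.a t x)) : (jacF (T.a t) e e' x).det ≠ 0 := by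
  have hid : ∀ y, T.a (-t) (T.a t y) = y := fun y => by
    rw [← T.add, neg_add_cancel, T.zero]
  have h2 : At e (T.a (-t) (T.a t x)) := by rw [hid]; exact h
  have h3 := jacF_comp (T.hol (-t)).contMDiffAt (T.hol t).contMDiffAt h h' h2
  have h4 : (fun x => T.a (-t) (T.a t x)) = fun x => x := funext hid
  rw [h4, jacF_id, jacM_self h] at h3
  intro h0
  have h5 := congrArg Matrix.det h3
  rw [Matrix.det_one, Matrix.det_mul, h0, mul_zero] at h5
  exact one_ne_zero h5

theorem det_w_map (hw : IsHermitian w) (T : TorusAct r n Z w) (t : Fin r → ℝ) {e e' : Chart n Z}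
    {x : Z} (h : At e x) (h' : At e' (T.a t x)) :
    (w e (e x)).det = (jacF (T.a t) e e' x).det * (w e' (e' (T.a t x))).det *
      cj (jacF (T.a t) e e' x).det := by
  have h1 := IsHolIso.pull hw ⟨T.hol t, T.iso t⟩ h h'
  rw [← h1, Matrix.det_mul, Matrix.det_mul, Matrix.det_transpose]
  congr 1
  exact (RingHom.map_det (starRingEnd ℂ) _).symm

theorem w_det_ne (hw : IsHermitian w) {e : Chart n Z} {x : Z} (h : At e x) :
    (w e (e x)).det ≠ 0 := (hw.posDef e x h).det_pos.ne'

/-- **The weight sections of `-K`** -/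
theorem sig_wsec (hw : IsHermitian w) (W : WF T M) (I : Fin n → Fin M) :
    Wsec T 1 (-lamI W I) (sig W I) := by
  have hdet : ∀ e x, At e x → ContDiffAt ℝ ∞ (fun z => (w e z).det) (e x) := fun e x h =>
    contDiffAt_det fun i j => hw.smooth e x h i j
  have law : ∀ t (e e' : Chart n Z) x, At e x → At e' (T.a t x) →
    (jacF (T.a t) e e' x).det ^ 1 * sig W I e (e x) * ch (-lamI W I) t =
      sig W I e' (e' (T.a t x)) := by
    intro t e e' x h h'
    have h1 := congrArg (starRingEnd ℂ) (tau_law W I t h h')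
    rw [map_mul, map_mul, ch_conj] at h1
    have h2 := det_w_map hw T t h h'
    have hJ := jacF_det_ne T t h h'
    have hJc : cj (jacF (T.a t) e e' x).det ≠ 0 := (map_ne_zero _).2 hJ
    have hw' := w_det_ne hw h'
    unfold sig
    rw [pow_one, mul_assoc, div_mul_eq_mul_div, mul_comm (cj (tau W I e (e x))), h1, h2]
    field_simp
  refine ⟨fun e x h => ?_, fun e e' x h h' => ?_, law⟩
  · unfold sig
    simp only [div_eq_mul_inv]
    have h1 : ContDiffAt ℝ ∞ (fun z => cj (tau W I e z)) (e x) :=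
      Complex.conjCLE.contDiff.contDiffAt.comp (e x) (tau_smooth W I h)
    exact h1.mul ((hdet e x h).inv (w_det_ne hw h))
  · have h1 : At e' (T.a 0 x) := by rw [T.zero]; exact h'
    have h2 := law 0 e e' x h h1
    have h3 : (T.a 0) = fun x => x := funext T.zero
    rw [ch_zero, mul_one, h3, jacF_id] at h2
    exact h2

theorem sig_ne (hw : IsHermitian w) (W : WF T M) (I : Fin n → Fin M) {e : Chart n Z} {x : Z}
    (h : At e x) : sig W I e (e x) ≠ 0 ↔ tau W I e (e x) ≠ 0 := by
  unfold sig
  rw [div_ne_zero_iff]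
  constructor
  · rintro ⟨h1, -⟩ h2
    exact h1 (by rw [h2]; exact map_zero _)
  · exact fun h1 => ⟨(map_ne_zero _).2 h1, w_det_ne hw h⟩

end tau

end Vale.Agent.P299.H800.Kir
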