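import Vale.Agent.P299.H723.D.Stmt
import Vale.Agent.P299.H582.Kir.Fam

/-!
# P299, INDEX-KIRWAN: weight functions and weight sections of a torus action
-/

open scoped Manifold ContDiff ComplexOrder Topology
open Vale.Agent.P272.K Vale.Agent.P299.D Vale.Agent.P299.H582

noncomputable section

namespace Vale.Agent.P299.H800.Kir

variable {r n : ℕ} {Z : Type} [TopologicalSpace Z] [ChartedSpace (Cm n) Z] {w : FormM n Z}

/-- `s` is a smooth section of `c·(-K)` of weight `κ`. -/
structure Wsec (T : TorusAct r n Z w) (c : ℕ) (κ : Fin r → ℤ) (s : Chart n Z → Cm n → ℂ) :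
    Prop where
  smooth : ∀ e x, At e x → ContDiffAt ℝ ∞ (s e) (e x)
  change : ∀ e e' x, At e x → At e' x → (jacM e e' x).det ^ c * s e (e x) = s e' (e' x)
  law : ∀ t e e' x, At e x → At e' (T.a t x) →
    (jacF (T.a t) e e' x).det ^ c * s e (e x) * ch κ t = s e' (e' (T.a t x))

/-- the linear form `ξ ↦ ⟨κ, ξ⟩` -/
def pair (κ : Fin r → ℤ) (ξ : Fin r → ℝ) : ℝ := ∑ i, (κ i : ℝ) * ξ i

/-- the scalar components of a section as a tensor of degree `0` -/
def toTen (s : Chart n Z → Cm n → ℂ) : Ten n 0 Z := fun e z _ => s e z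

end Vale.Agent.P299.H800.Kir
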